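import Vale.Agent.P216.H347.TauDefs

/-!
# P216, Theorem B, block [TAU], [P4] : the degree one map of the cube onto the sphere
-/

open Set

set_option linter.all false
set_option linter.deprecated false

namespace Vale.Agent.P216.H779B

open Vale.Agent.P216.Tau

/-- `2 ‖θ - 1/2‖` (sup norm). -/
noncomputable def rr {n : ℕ} (θ : Fin n → ℝ) : ℝ := 2 * ‖fun i => θ i - 1 / 2‖

/-- The vector `(c (1 - r) (θ - 1/2), 1 - 2 r)`. -/
noncomputable def bb (c : ℝ) {n : ℕ} (θ : Fin n → ℝ) : EuclideanSpace ℝ (Fin (n + 1)) :=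
  WithLp.toLp 2 (Fin.snoc (α := fun _ => ℝ) (fun i => c * (1 - rr θ) * (θ i - 1 / 2)) (1 - 2 * rr θ))

theorem bb_cast (c : ℝ) {n : ℕ} (θ : Fin n → ℝ) (i : Fin n) :
    bb c θ i.castSucc = c * (1 - rr θ) * (θ i - 1 / 2) := by
  simp [bb]

theorem bb_last (c : ℝ) {n : ℕ} (θ : Fin n → ℝ) : bb c θ (Fin.last n) = 1 - 2 * rr θ := by
  simp [bb]

theorem continuous_rr {n : ℕ} : Continuous (rr : (Fin n → ℝ) → ℝ) := by
  unfold rr
  fun_prop

theorem continuous_bb (c : ℝ) {n : ℕ} : Continuous (bb c : (Fin n → ℝ) → _) := by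
  unfold bb
  refine (PiLp.continuous_toLp 2 _).comp (continuous_pi fun j => ?_)
  refine Fin.lastCases ?_ (fun i => ?_) j
  · simp only [Fin.snoc_last]
    exact continuous_const.sub (continuous_const.mul continuous_rr)
  · simp only [Fin.snoc_castSucc]
    exact (continuous_const.mul (continuous_const.sub continuous_rr)).mul
      ((continuous_apply i).sub continuous_const)

theorem rr_nonneg {n : ℕ} (θ : Fin n → ℝ) : 0 ≤ rr θ := by unfold rr; positivity

theorem rr_eq_zero {n : ℕ} {θ : Fin n → ℝ} (h : ∀ i, θ i - 1 / 2 = 0) : rr θ = 0 := by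
  have : (fun i => θ i - 1 / 2) = (0 : Fin n → ℝ) := funext h
  rw [rr, this, norm_zero, mul_zero]

theorem rr_le_one {n : ℕ} {θ : Fin n → ℝ} (h : θ ∈ cube n) : rr θ ≤ 1 := by
  have : ‖fun i => θ i - 1 / 2‖ ≤ 1 / 2 := by
    rw [pi_norm_le_iff_of_nonneg (by norm_num)]
    intro i
    rw [Real.norm_eq_abs, abs_le]
    have := h i
    constructor <;> linarith [this.1, this.2]
  unfold rr
  linarith

theorem rr_eq_one {n : ℕ} {θ : Fin n → ℝ} (h : θ ∈ bdc n) : rr θ = 1 := by
  refine le_antisymm (rr_le_one h.1) ?_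
  obtain ⟨i, hi⟩ := h.2
  have h1 := norm_le_pi_norm (fun i => θ i - 1 / 2) i
  rw [Real.norm_eq_abs] at h1
  have h2 : |θ i - 1 / 2| = 1 / 2 := by
    rcases hi with hi | hi
    · rw [hi]; norm_num [abs_of_neg]
    · rw [hi]; norm_num
  unfold rr
  linarith

theorem bb_ne {c : ℝ} (hc : c ≠ 0) {n : ℕ} (θ : Fin n → ℝ) : bb c θ ≠ 0 := by
  intro h
  have h1 : 1 - 2 * rr θ = 0 := by rw [← bb_last c θ, h]; rfl
  have h2 : ∀ i, θ i - 1 / 2 = 0 := fun i => by
    have h3 : c * (1 - rr θ) * (θ i - 1 / 2) = 0 := by rw [← bb_cast c θ i, h]; rfl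
    have h4 : c * (1 - rr θ) ≠ 0 := mul_ne_zero hc (by
      intro h5
      linarith)
    exact (mul_eq_zero.1 h3).resolve_left h4
  have h3 := rr_eq_zero h2
  rw [h3] at h1
  norm_num at h1

/-- The normalised vector. -/
noncomputable def sb {c : ℝ} (hc : c ≠ 0) {n : ℕ} (θ : Fin n → ℝ) :
    Metric.sphere (0 : EuclideanSpace ℝ (Fin (n + 1))) 1 :=
  ⟨‖bb c θ‖⁻¹ • bb c θ, by
    rw [mem_sphere_zero_iff_norm, norm_smul, norm_inv, norm_norm,
      inv_mul_cancel₀ (norm_ne_zero_iff.2 (bb_ne hc θ))]⟩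

theorem continuous_sb {c : ℝ} (hc : c ≠ 0) {n : ℕ} : Continuous (sb hc : (Fin n → ℝ) → _) := by
  refine Continuous.subtype_mk ?_ _
  exact ((continuous_bb c).norm.inv₀ fun θ => norm_ne_zero_iff.2 (bb_ne hc θ)).smul
    (continuous_bb c)

theorem bb_bdc {c : ℝ} {n : ℕ} {θ : Fin n → ℝ} (h : θ ∈ bdc n) :
    bb c θ = -EuclideanSpace.single (Fin.last n) (1 : ℝ) := by
  ext j
  refine Fin.lastCases ?_ (fun i => ?_) j
  · rw [bb_last, rr_eq_one h]
    simp
    norm_num
  · rw [bb_cast, rr_eq_one h]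
    simp

theorem sb_bdc {c : ℝ} (hc : c ≠ 0) {n : ℕ} {θ : Fin n → ℝ} (h : θ ∈ bdc n) :
    (sb hc θ).1 = -EuclideanSpace.single (Fin.last n) (1 : ℝ) := by
  show ‖bb c θ‖⁻¹ • bb c θ = _
  rw [bb_bdc h, norm_neg, EuclideanSpace.norm_single]
  simp

/-- The north pole. -/
noncomputable def np (n : ℕ) : Metric.sphere (0 : EuclideanSpace ℝ (Fin (n + 1))) 1 :=
  ⟨EuclideanSpace.single (Fin.last n) (1 : ℝ), by
    rw [mem_sphere_zero_iff_norm, EuclideanSpace.norm_single]; simp⟩

/-- The south pole. -/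
noncomputable def sp (n : ℕ) : Metric.sphere (0 : EuclideanSpace ℝ (Fin (n + 1))) 1 :=
  ⟨-EuclideanSpace.single (Fin.last n) (1 : ℝ), by
    rw [mem_sphere_zero_iff_norm, norm_neg, EuclideanSpace.norm_single]; simp⟩

theorem init_mem_cube {n : ℕ} {v : Fin (n + 1) → ℝ} (hv : v ∈ cube (n + 1)) :
    Fin.init v ∈ cube n := fun i => hv i.castSucc

/-- The cases of a boundary point. -/
theorem bdc_cases {n : ℕ} {v : Fin (n + 1) → ℝ} (hv : v ∈ bdc (n + 1)) :
    Fin.init v ∈ bdc n ∨ v (Fin.last n) = 0 ∨ v (Fin.last n) = 1 := by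
  obtain ⟨i, hi⟩ := hv.2
  revert hi
  refine Fin.lastCases ?_ (fun i => ?_) i
  · intro hi
    exact Or.inr hi
  · intro hi
    exact Or.inl ⟨init_mem_cube hv.1, i, hi⟩

/-- The arithmetic of both conditions: `a` is the time spent on `B`. -/
theorem arith {n : ℕ} {θ : Fin n → ℝ} {r lam s a : ℝ} (hr : r = rr θ) (hlam : 0 < lam)
    (hs : s ∈ Icc (0 : ℝ) 1) (hθ : θ ∈ cube n)
    (ha : a ∈ Icc (0 : ℝ) 1)
    (h1 : ∀ i, ((1 - s) * (a * lam * (1 - r)) + s) * (θ i - 1 / 2) = 0)
    (h2 : (1 - s) * (a * lam * (1 - 2 * r) - (1 - a)) + s * (a - 1 / 2) = 0)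
    (hc : (θ ∈ bdc n ∧ lam = 1) ∨ a = 0 ∨ a = 1) : False := by
  have hr0 : 0 ≤ r := hr ▸ rr_nonneg θ
  have hr1 : r ≤ 1 := hr ▸ rr_le_one hθ
  rcases hc with ⟨hb, hl⟩ | rfl | rfl
  · have hr' : r = 1 := hr ▸ rr_eq_one hb
    subst hl
    obtain ⟨i, hi⟩ := hb.2
    have h3 := h1 i
    rw [hr'] at h3 h2
    have h4 : s = 0 := by
      rcases hi with hi | hi <;> rw [hi] at h3 <;> linarith
    rw [h4] at h2
    linarith
  · have := hs.1
    have := hs.2
    nlinarith
  · by_cases hs0 : s = 0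
    · subst hs0
      have h3 : 1 - 2 * r = 0 := by
        have : lam * (1 - 2 * r) = 0 := by linarith
        exact (mul_eq_zero.1 this).resolve_left hlam.ne'
      have h4 : ∀ i, θ i - 1 / 2 = 0 := fun i => by
        refine (mul_eq_zero.1 (h1 i)).resolve_left (ne_of_gt ?_)
        have : 0 < lam * (1 - r) := mul_pos hlam (by linarith)
        linarith
      have h5 := rr_eq_zero h4
      rw [← hr] at h5
      linarith
    · have hsp : 0 < s := lt_of_le_of_ne hs.1 (Ne.symm hs0)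
      have h4 : ∀ i, θ i - 1 / 2 = 0 := fun i => by
        refine (mul_eq_zero.1 (h1 i)).resolve_left (ne_of_gt ?_)
        have : 0 ≤ (1 - s) * (1 * lam * (1 - r)) :=
          mul_nonneg (by linarith [hs.2]) (mul_nonneg (by linarith) (by linarith))
        linarith
      have h5 := rr_eq_zero h4
      rw [← hr] at h5
      rw [h5] at h2
      have : 0 ≤ (1 - s) * lam := mul_nonneg (by linarith [hs.2]) hlam.le
      nlinarith

/-- [P4] -/
theorem stDeg (n : ℕ) : StDeg n := by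
  intro M _ _ h
  have hm : (-1 : ℝ) ≠ 0 := by norm_num
  have hp : (1 : ℝ) ≠ 0 := by norm_num
  refine ⟨fun θ => h.symm (sb hm θ), fun θ => h.symm (sb hp θ), h.symm (sp n), h.symm (np n),
    h.symm.continuous.comp (continuous_sb hm), h.symm.continuous.comp (continuous_sb hp),
    fun θ hθ => ?_, fun θ hθ => ?_, fun v hv s hs h0 => ?_, fun v hv s hs h0 => ?_⟩
  · exact congrArg h.symm (Subtype.ext (sb_bdc hm hθ))
  · exact congrArg h.symm (Subtype.ext (sb_bdc hp hθ))
  · have hlam : 0 < ‖bb (-1) (Fin.init v)‖⁻¹ := inv_pos.2 (norm_pos_iff.2 (bb_ne hm _))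
    have ht := hv.1 (Fin.last n)
    have hB : ∀ j, (h (h.symm (sb hm (Fin.init v)))).1 j =
        ‖bb (-1) (Fin.init v)‖⁻¹ * bb (-1) (Fin.init v) j := fun j => by
      rw [h.apply_symm_apply]; rfl
    have hN : ∀ j, (h (h.symm (np n))).1 j = if j = Fin.last n then 1 else 0 := fun j => by
      rw [h.apply_symm_apply]
      show EuclideanSpace.single (Fin.last n) (1 : ℝ) j = _
      simp [Pi.single_apply, EuclideanSpace.single_apply]
    have hj := fun j => congrFun h0 j
    simp only [Pi.add_apply, Pi.smul_apply, smul_eq_mul, Fh, hB, hN, Pi.zero_apply] at hj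
    refine arith (θ := Fin.init v) (r := rr (Fin.init v)) (lam := ‖bb (-1) (Fin.init v)‖⁻¹)
      (s := s) (a := 1 - v (Fin.last n)) rfl hlam hs (init_mem_cube hv.1)
      ⟨by linarith [ht.2], by linarith [ht.1]⟩ (fun i => ?_) ?_ ?_
    · have := hj i.castSucc
      rw [bb_cast, if_neg (Fin.castSucc_lt_last i).ne] at this
      have e1 : Fin.init v i = v i.castSucc := rfl
      rw [e1] at this ⊢
      linarith
    · have := hj (Fin.last n)
      rw [bb_last, if_pos rfl] at this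
      linarith
    · rcases bdc_cases hv with hb | hb | hb
      · refine Or.inl ⟨hb, ?_⟩
        rw [bb_bdc hb, norm_neg, EuclideanSpace.norm_single]
        simp
      · exact Or.inr (Or.inr (by rw [hb]; ring))
      · exact Or.inr (Or.inl (by rw [hb]; ring))
  · have hlam : 0 < ‖bb 1 (Fin.init v)‖⁻¹ := inv_pos.2 (norm_pos_iff.2 (bb_ne hp _))
    have ht := hv.1 (Fin.last n)
    have hB : ∀ j, (h (h.symm (sb hp (Fin.init v)))).1 j =
        ‖bb 1 (Fin.init v)‖⁻¹ * bb 1 (Fin.init v) j := fun j => by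
      rw [h.apply_symm_apply]; rfl
    have hN : ∀ j, (h (h.symm (np n))).1 j = if j = Fin.last n then 1 else 0 := fun j => by
      rw [h.apply_symm_apply]
      show EuclideanSpace.single (Fin.last n) (1 : ℝ) j = _
      simp [Pi.single_apply, EuclideanSpace.single_apply]
    have hj := fun j => congrFun h0 j
    simp only [Pi.add_apply, Pi.smul_apply, smul_eq_mul, Fh, hB, hN, Pi.zero_apply] at hj
    refine arith (θ := Fin.init v) (r := rr (Fin.init v)) (lam := ‖bb 1 (Fin.init v)‖⁻¹)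
      (s := s) (a := v (Fin.last n)) rfl hlam hs (init_mem_cube hv.1) ht
      (fun i => ?_) ?_ ?_
    · have := hj i.castSucc
      rw [bb_cast, if_neg (Fin.castSucc_lt_last i).ne] at this
      have e1 : Fin.init v i = v i.castSucc := rfl
      rw [e1] at this ⊢
      linarith
    · have := hj (Fin.last n)
      rw [bb_last, if_pos rfl] at this
      linarith
    · rcases bdc_cases hv with hb | hb | hb
      · refine Or.inl ⟨hb, ?_⟩
        rw [bb_bdc hb, norm_neg, EuclideanSpace.norm_single]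
        simp
      · exact Or.inr (Or.inl hb)
      · exact Or.inr (Or.inr hb)

end Vale.Agent.P216.H779B
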